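import Vale.Agent.P344.R2.H527.Main

/-!
# P344: the conjectured lower bound for the discrete Fourier transform is false

`L n` is the complexity of the problem: the least number of gates of a linear circuit for `F_n`,
with unrestricted coefficients and depth.  `zetaForms m` is the zeta transform
`y_S = ∑_{T ⊇ S} x_T` over the subsets of a set with `m` elements.  `InPlace r M` says that an
in-place program with `r` additions `x_i := x_i + c x_j` computes the matrix `M`; permutations of
the cells and multiplications of cells by nonzero numbers are free.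
-/

namespace Vale.Agent.Results.P344.Disproof

open Vale.Agent.P344 Vale.Agent.P344.R2.H715 Vale.Agent.P344.R2.H527

theorem result :
    -- (a) Q1 is false: no lower bound of order `n log n`
    (¬ ∃ c : ℝ, 0 < c ∧ ∃ N : ℕ, ∀ n : ℕ, N ≤ n → c * (n * Real.logb 2 n) ≤ L n) ∧
    -- (b) for some `ε > 0` and all `n ≥ 2`, some circuit with `L(n)` gates computes `F_n`, and
    -- `L(n) ≤ C n (log n)^(1 - ε)`
    (∃ ε : ℝ, 0 < ε ∧ ∃ C : ℝ, ∀ n : ℕ, 2 ≤ n →
      Computes Set.univ ⊤ (dft n) (L n) ∧ (L n : ℝ) ≤ C * (n * Real.logb 2 n ^ (1 - ε))) ∧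
    -- (c) the zeta transform has circuits with at most `C m^(1 - ε) 2^m` gates
    (∃ ε : ℝ, 0 < ε ∧ ∃ C : ℝ, ∀ m : ℕ, 1 ≤ m →
      ∃ s : ℕ, Computes Set.univ ⊤ (zetaForms m) s ∧ (s : ℝ) ≤ C * ((m : ℝ) ^ (1 - ε) * 2 ^ m)) ∧
    -- (d) the fast zeta transform, with its `m 2^(m-1)` additions, is not optimal in place
    (∃ m r : ℕ, r < m * 2 ^ (m - 1) ∧ InPlace r (zetaMat m)) :=
  ⟨no_bound, exists_saving, zeta_of_not not_noShort, exists_short⟩

end Vale.Agent.Results.P344.Disproof
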