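import Vale.Agent.P344.R2.H715.Tfae

/-!
# P344: a gap law, and Q1 as the exact optimality of the fast zeta transform

`L n` is the complexity of the problem (unrestricted coefficients and depth), `LMany N n` the
complexity of `N` independent transforms `F_n`, computed together.  `InPlace r M` says that an
in-place program with `r` additions `x_i := x_i + c x_j` computes the matrix `M`; permutations of
the cells and multiplications of cells by nonzero numbers are free.
-/

namespace Vale.Agent.Results.P344.GapLaw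

open Filter Asymptotics Vale.Agent.P344 Vale.Agent.P344.R2.H715

theorem result :
    -- (a) the fast zeta transform
    (∀ m : ℕ, InPlace (m * 2 ^ (m - 1)) (zetaMat m)) ∧
    -- (b) a single shorter program, for one `m`, even if it may use and must restore `w` other
    -- cells, gives `L(n) = o(n log n)`
    (∀ m w r : ℕ, InPlace r (borrow w (zetaMat m)) → r < m * 2 ^ (m - 1) →
      (fun n : ℕ => (L n : ℝ)) =o[atTop] fun n : ℕ => (n : ℝ) * Real.logb 2 n) ∧
    -- (c) gap law: either `L(n) = o(n log n)`, or explicit bounds hold for all orders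
    ((fun n : ℕ => (L n : ℝ)) =o[atTop] (fun n : ℕ => (n : ℝ) * Real.logb 2 n) ∨
      (∀ n : ℕ, 2 ≤ n → (n : ℝ) * Real.logb 2 n ≤ 576 * (L n + n)) ∧
      (∀ m : ℕ, m * 2 ^ m ≤ 144 * L (2 ^ m - 1) + 318 * 2 ^ m)) ∧
    -- (d) circuits for `F_n` and in-place programs for copies of `F_n`
    (∀ n h : ℕ, n ≠ 0 → L n ≤ 2 * (h - 1) * n →
      ∃ r ≤ h * (24 * L n + 6 * n), InPlace r (dftCopies (2 * h) n)) ∧
    (∀ N n w r : ℕ, InPlace r (borrow w (dftCopies N n)) → LMany N n ≤ 2 * r + N * n) ∧
    -- (e) forms of Q1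
    List.TFAE [
      -- Q1
      ∃ c : ℝ, 0 < c ∧ ∀ᶠ n : ℕ in atTop, c * (n * Real.logb 2 n) ≤ L n,
      -- the fast zeta transform is optimal among in-place programs, exactly, for every `m`
      ∀ m : ℕ, IsLeast {r | InPlace r (zetaMat m)} (m * 2 ^ (m - 1)),
      -- the same with `w` borrowed cells
      ∀ m w r : ℕ, InPlace r (borrow w (zetaMat m)) → m * 2 ^ (m - 1) ≤ r,
      -- Q1 with an explicit constant, for every `n`
      ∀ n : ℕ, 2 ≤ n → (n : ℝ) * Real.logb 2 n ≤ 576 * (L n + n),
      -- an explicit bound for the orders `2^m - 1`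
      ∀ m : ℕ, m * 2 ^ m ≤ 144 * L (2 ^ m - 1) + 318 * 2 ^ m,
      -- an explicit bound for linear circuits for the zeta transform
      ∀ m s : ℕ, Computes Set.univ ⊤ (zetaForms m) s → m * 2 ^ m ≤ 24 * s + 6 * 2 ^ m,
      -- some bound for linear circuits for the zeta transform, for infinitely many `m`
      ∃ c : ℝ, 0 < c ∧ ∃ᶠ m : ℕ in atTop, ∀ s : ℕ,
        Computes Set.univ ⊤ (zetaForms m) s → c * (m * 2 ^ m) ≤ s,
      -- in-place programs for copies of `F_n`, with borrowed cells
      ∃ c : ℝ, 0 < c ∧ ∀ᶠ n : ℕ in atTop, ∀ N w r : ℕ, 1 ≤ N →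
        InPlace r (borrow w (dftCopies N n)) → c * (N * (n * Real.logb 2 n)) ≤ r] := by
  refine ⟨inPlace_zetaMat, fun m w r h hr => isLittleO_of_gam_eq_zero (gam_eq_zero_of_borrow h hr),
    ?_, fun n h hn hh => (word_dftCopies hn hh).inPlace, fun N n w r h => LMany_le_of_inPlace h,
    forms_tfae⟩
  rcases eq_or_lt_of_le gam_nonneg with h0 | h0
  · exact Or.inl (isLittleO_of_gam_eq_zero h0.symm)
  · exact Or.inr (noShort_of_gam_pos h0).bounds

end Vale.Agent.Results.P344.GapLaw
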