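import Vale.Agent.P344.R2.H621.Q1Form

/-!
# P344: circuits for the normalized transform, cancellation, and scales

`disc K` is the set of complex numbers of modulus at most `K`, `sdft ρ n` is `ρ F_n`,
`canc C f g` is `max (0, log (max (|p|, |q|) / |g|))` for a gate `g = p + q` or `g = p - q`
(Euclidean norms of the linear forms computed; `0` for scalar multiplications and if `g = 0`),
`reach t g` is `max (t p, t q)` for `g = p ± q` and `|c| t p` for `g = c p`, and
`gain C t g = max (0, log (reach t g / t g))`.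
-/

namespace Vale.Agent.Results.P344.NormalizedTransform

open Filter Matrix Vale.Agent.P344 Vale.Agent.P344.R2.H621

theorem result :
    -- every circuit for `F_n`, coefficients and depth unrestricted: size plus cancellation
    (∀ᶠ n : ℕ in atTop, ∀ (C : Circuit (Fin n) (Fin n)) (f : C.G → Fin n → ℂ), C.IsForms f →
      (∀ j k : Fin n, C.cell f (C.out j) k =
        Complex.exp (2 * Real.pi * Complex.I / n) ^ ((j : ℕ) * (k : ℕ))) →
      n * Real.log (Real.log n) / 120 ≤ Fintype.card C.G + ∑ g, canc C f g) ∧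
    -- the normalized transform, with coefficients of modulus at most `K`
    (∀ K : ℝ, 1 ≤ K → ∀ᶠ n : ℕ in atTop, ∀ s : ℕ,
      Computes (disc K) ⊤ (fun (j : Fin n) x => ((Real.sqrt n : ℝ) : ℂ)⁻¹ * dft n j x) s →
        n * Real.log (Real.log n) / (120 * (1 + Real.log K)) ≤ s) ∧
    -- the transform `ρ F_n`, for every scale `ρ`
    (∀ K : ℝ, 1 ≤ K → ∀ᶠ n : ℕ in atTop, ∀ ρ : ℝ, 0 < ρ → ∀ s : ℕ,
      Computes (disc K) ⊤ (sdft ρ n) s →
        n * Real.log (Real.log n) / 120 ≤ (1 + Real.log K) * s +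
          n * max 0 (Real.log (1 / (ρ * Real.sqrt n)))) ∧
    -- every unitary matrix with small entries, every scale `t` of the cells
    (∀ γ : ℝ, 0 < γ → ∀ᶠ n : ℕ in atTop, ∀ U : Matrix (Fin n) (Fin n) ℂ,
      U * Uᴴ = 1 → (∀ i j, ‖U i j‖ ≤ (n : ℝ) ^ (-γ)) →
      ∀ (C : Circuit (Fin n) (Fin n)) (f : C.G → Fin n → ℂ) (ρ : ℝ), C.IsForms f → 0 < ρ →
        (∀ j i, C.cell f (C.out j) i = ρ * U j i) →
        n * Real.log (Real.log n) / 120 ≤ Fintype.card C.G + ∑ g, canc C f g ∧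
        ∀ t : Option (Fin n) ⊕ C.G → ℝ, (∀ k, 0 < t k) → (∀ k, t (.inl k) = 1) →
          n * Real.log (Real.log n) / 120 ≤ Fintype.card C.G + ∑ g, gain C t g +
            ∑ j, max 0 (Real.log (t (C.out j) / ρ))) ∧
    -- coefficients of modulus at most `1` are enough for some scale `ρ`
    (∀ n : ℕ, (∃ ρ : ℝ, 0 < ρ ∧ ∃ s ≤ 2 * L n + n, Computes (disc 1) ⊤ (sdft ρ n) s) ∧
      ∀ ρ : ℝ, 0 < ρ → ∀ s : ℕ, Computes (disc 1) ⊤ (sdft ρ n) s → L n ≤ s + n) ∧
    -- Q1 is the question for coefficients of modulus at most `1` and all scales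
    ((∃ c : ℝ, 0 < c ∧ ∀ᶠ n : ℕ in atTop, c * (n * Real.logb 2 n) ≤ L n) ↔
      ∃ c : ℝ, 0 < c ∧ ∀ᶠ n : ℕ in atTop, ∀ ρ : ℝ, 0 < ρ → ∀ s : ℕ,
        Computes (disc 1) ⊤ (sdft ρ n) s → c * (n * Real.logb 2 n) ≤ s) := by
  refine ⟨canc_dft, fun K hK => normalized_bound hK, fun K hK => bounded_bound hK,
    fun γ hγ => ?_, fun n => ⟨exists_scaled n, fun ρ hρ s hs => L_le_scaled hρ hs⟩, q1_iff⟩
  filter_upwards [canc_bound hγ, circuit_bound hγ] with n h1 h2 U hU hδ C f ρ hf hρ hout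
  exact ⟨h1 U hU hδ C f ρ hf hρ hout, h2 U hU hδ C f ρ hf hρ hout⟩

end Vale.Agent.Results.P344.NormalizedTransform
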